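import Vale.Agent.P011Z.Cl.D4f.C

/-!
Classification of the forms: block D4f, the data of the model.
-/

open Matrix Module

noncomputable section

namespace Vale.Agent.P011Z.Cl.D4fx

open Vale.Agent.P011.D4 Vale.Agent.P011.D4.Oct Vale.Agent.P011.E6 Vale.Agent.P011.E6.Alb
open Vale.Agent.P011.H900 (Oc om oc ap Aut Dvn Dat Rl)

variable {D : FD} {d : Om} {q g : Fin 3 → Om} {ρ s σ τ : Gq} {W : Set Gq}

theorem St.fld (h : St D d q g ρ s W) : ∃ (F : Type) (_ : Field F) (_ : NumberField F)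
    (ι : F →+* Om) (N : Subgroup Gq) (r : Gq → F → F) (a b c e t : F),
      Fld D d q g ι N r a b c e t := by
  obtain ⟨K, hK, h1⟩ := h.ok.ker
  have hN := hK.inf (opn_stab d)
  set N := K ⊓ MulAction.stabilizer Gq d
  have h2 : ∀ σ, σ ∈ N ↔ σ ∈ D.G ∧ D.π σ = 1 ∧ σ d = d := fun σ => by
    rw [Subgroup.mem_inf, h1, and_assoc]
    rfl
  have h3 : ∀ y, Fx N y ↔ ∃ x, algebraMap (IntermediateField.fixedField N) Om x = y :=
    fun y => ⟨fun hy => ⟨⟨y, mem_fix.2 hy⟩, rfl⟩, by rintro ⟨x, rfl⟩; exact mem_fix.1 x.2⟩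
  obtain ⟨r, hr⟩ := exists_res (G := D.G) h3 fun σ hσ τ hτ => by
    obtain ⟨t1, t2, t3⟩ := (h2 τ).1 hτ
    have h4 := D.G.mul_mem t1 hσ
    rw [mul_assoc]
    refine (h2 _).2 ⟨D.G.mul_mem (D.G.inv_mem hσ) h4, ?_, inv_d ?_⟩
    · rw [pinv h.ok hσ h4, h.ok.pmul τ t1 σ hσ, t2, one_mul, inv_mul_cancel]
    · rw [AlgEquiv.mul_apply]
      rcases eq_or_neg (h.sq σ hσ) with h5 | h5 <;> simp only [h5, map_neg, t3]
  have h4 : ∀ y, Fx D.G y → Fx N y := fun y hy σ hσ => hy σ ((h2 σ).1 hσ).1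
  obtain ⟨a, ha⟩ := (h3 _).1 (h4 _ h.sq)
  obtain ⟨b, hb⟩ := (h3 _).1 (h4 _ (h.gfx 0))
  obtain ⟨c, hc⟩ := (h3 _).1 (h4 _ (h.gfx 1))
  obtain ⟨e, he⟩ := (h3 d).1 fun σ hσ => ((h2 σ).1 hσ).2.2
  obtain ⟨t, ht⟩ := (h3 (q 1)⁻¹).1 fun σ hσ => by
    rw [map_inv₀, h.nf.qe σ ((h2 σ).1 hσ).1, ((h2 σ).1 hσ).2.1, Equiv.Perm.one_apply]
  exact ⟨_, _, hN.nf, _, N, r, a, b, c, e, t, hN, h2, h3, fun σ hσ => (hr σ hσ).1, ha, hb, hc, he,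
    ht⟩

variable {F : Type} [Field F] {ι : F →+* Om} {N : Subgroup Gq} {r : Gq → F → F} {a b c e t : F}

theorem Fld.same (k : Fld D d q g ι N r a b c e t) (h : D.OK) (hσ : σ ∈ D.G) (hτ : τ ∈ D.G)
    (h1 : D.π σ = D.π τ) (h2 : σ d = τ d) (x : F) : σ (ι x) = τ (ι x) := by
  have h3 := (k.fx _).2 ⟨x, rfl⟩ _ ((k.mem _).2 ⟨D.G.mul_mem (D.G.inv_mem hσ) hτ,
    by rw [pinv h hσ hτ, h1, inv_mul_cancel], inv_d h2⟩)
  rw [← h3, ← AlgEquiv.mul_apply, mul_inv_cancel_left, h3]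

theorem Fld.iter (k : Fld D d q g ι N r a b c e t) (hσ : σ ∈ D.G) (n : ℕ) (x : F) :
    ι ((r σ)^[n] x) = (σ ^ n) (ι x) := by
  induction n with
  | zero => rfl
  | succ n ih => rw [Function.iterate_succ_apply', ← k.res σ hσ, ih, pow_succ', AlgEquiv.mul_apply]

theorem Fld.aut (k : Fld D d q g ι N r a b c e t) (hσ : σ ∈ D.G) {n : ℕ} (h1 : σ ^ n ∈ N)
    (h2 : σ ∉ N) : Aut n (r σ) := by
  refine ⟨fun x y => ⟨ι.injective ?_, ι.injective ?_⟩, funext fun x => ι.injective ?_,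
    fun h3 => h2 (k.opn.mem fun y hy => ?_)⟩
  · simp only [← k.res σ hσ, map_add]
  · simp only [← k.res σ hσ, map_mul]
  · rw [k.iter hσ]
    exact (k.fx _).2 ⟨x, rfl⟩ _ h1
  · obtain ⟨x, rfl⟩ := (k.fx y).1 hy
    rw [k.res σ hσ, h3, id]

theorem Fld.fix (k : Fld D d q g ι N r a b c e t) (hσ : σ ∈ D.G) (x : F) :
    r σ x = x ↔ σ (ι x) = ι x := by
  rw [k.res σ hσ, ι.injective.eq_iff]

theorem St.fix (h : St D d q g ρ s W) (k : Fld D d q g ι N r a b c e t) (x : F) :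
    (r ρ x = x ∧ r s x = x ∧ ∀ w ∈ W, r w x = x) ↔ Fx D.G (ι x) := by
  refine ⟨fun ⟨h1, h2, h3⟩ => h.ind (C := fun σ => σ (ι x) = ι x)
    (fun σ _ τ _ u v => by rw [AlgEquiv.mul_apply, v, u])
    (fun σ u v w => (k.fx _).2 ⟨x, rfl⟩ σ ((k.mem σ).2 ⟨u, v, w⟩)) ((k.fix h.rG x).1 h1)
    ((k.fix h.sG x).1 h2) fun w hw => (k.fix (h.wG w hw).1 x).1 (h3 w hw), fun h1 =>
    ⟨(k.fix h.rG x).2 (h1 _ h.rG), (k.fix h.sG x).2 (h1 _ h.sG),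
      fun w hw => (k.fix (h.wG w hw).1 x).2 (h1 _ (h.wG w hw).1)⟩⟩

theorem sq_zero {p x : ℝ} (hp : 0 < p) (h : p * x ^ 2 ≤ 0) : x = 0 := by
  by_contra h1
  exact absurd h (not_le.2 (by positivity))

theorem aniso {A B C x0 x1 x2 x3 x4 x5 x6 x7 : ℝ} (hA : A < 0) (hB : B < 0) (hC : C < 0)
    (h : x0 ^ 2 - A * x1 ^ 2 - B * x2 ^ 2 + A * B * x3 ^ 2 -
      C * (x4 ^ 2 - A * x5 ^ 2 - B * x6 ^ 2 + A * B * x7 ^ 2) = 0) :
    x0 = 0 ∧ x1 = 0 ∧ x2 = 0 ∧ x3 = 0 ∧ x4 = 0 ∧ x5 = 0 ∧ x6 = 0 ∧ x7 = 0 := by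
  obtain ⟨A, rfl⟩ := neg_surjective A
  obtain ⟨B, rfl⟩ := neg_surjective B
  obtain ⟨C, rfl⟩ := neg_surjective C
  rw [neg_lt_zero] at hA hB hC
  have n0 : 0 ≤ 1 * x0 ^ 2 := by positivity
  have n1 : 0 ≤ A * x1 ^ 2 := by positivity
  have n2 : 0 ≤ B * x2 ^ 2 := by positivity
  have n3 : 0 ≤ A * B * x3 ^ 2 := by positivity
  have n4 : 0 ≤ C * x4 ^ 2 := by positivity
  have n5 : 0 ≤ C * A * x5 ^ 2 := by positivity
  have n6 : 0 ≤ C * B * x6 ^ 2 := by positivity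
  have n7 : 0 ≤ C * A * B * x7 ^ 2 := by positivity
  exact ⟨sq_zero one_pos (by linarith), sq_zero hA (by linarith), sq_zero hB (by linarith),
    sq_zero (mul_pos hA hB) (by linarith), sq_zero hC (by linarith),
    sq_zero (mul_pos hC hA) (by linarith), sq_zero (mul_pos hC hB) (by linarith),
    sq_zero (mul_pos (mul_pos hC hA) hB) (by linarith)⟩

theorem dvn {l : List (F → F)} (w : F →+* ℂ) (hw : Rl l w)
    (h0 : ∀ φ ∈ l, φ a = a ∧ φ b = b ∧ φ c = c) (ha : (w a).re < 0) (hb : (w b).re < 0)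
    (hc : (w c).re < 0) : Dvn l l a b c := by
  refine ⟨h0, fun x hx hn => ?_⟩
  have e : ∀ y, (∀ φ ∈ l, φ y = y) → w y = ((w y).re : ℂ) := fun y hy =>
    Complex.ext rfl (hw y hy)
  have z : ∀ y, (∀ φ ∈ l, φ y = y) → (w y).re = 0 → y = 0 := fun y hy h =>
    (map_eq_zero w).1 (Complex.ext h (hw y hy))
  have f0 : ∀ φ ∈ l, φ x.1.re = x.1.re := fun φ h => congrArg (·.1.re) (hx φ h)
  have f1 : ∀ φ ∈ l, φ x.1.imI = x.1.imI := fun φ h => congrArg (·.1.imI) (hx φ h)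
  have f2 : ∀ φ ∈ l, φ x.1.imJ = x.1.imJ := fun φ h => congrArg (·.1.imJ) (hx φ h)
  have f3 : ∀ φ ∈ l, φ x.1.imK = x.1.imK := fun φ h => congrArg (·.1.imK) (hx φ h)
  have f4 : ∀ φ ∈ l, φ x.2.re = x.2.re := fun φ h => congrArg (·.2.re) (hx φ h)
  have f5 : ∀ φ ∈ l, φ x.2.imI = x.2.imI := fun φ h => congrArg (·.2.imI) (hx φ h)
  have f6 : ∀ φ ∈ l, φ x.2.imJ = x.2.imJ := fun φ h => congrArg (·.2.imJ) (hx φ h)
  have f7 : ∀ φ ∈ l, φ x.2.imK = x.2.imK := fun φ h => congrArg (·.2.imK) (hx φ h)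
  have h1 : x.1.re ^ 2 - a * x.1.imI ^ 2 - b * x.1.imJ ^ 2 + a * b * x.1.imK ^ 2 -
      c * (x.2.re ^ 2 - a * x.2.imI ^ 2 - b * x.2.imJ ^ 2 + a * b * x.2.imK ^ 2) = 0 := by
    refine Eq.trans ?_ hn
    simp [P011.H900.re, om, oc]
    ring
  have h2 := congrArg w h1
  simp only [map_sub, map_add, map_mul, map_pow, map_zero] at h2
  rw [e _ f0, e _ f1, e _ f2, e _ f3, e _ f4, e _ f5, e _ f6, e _ f7, e a fun φ h => (h0 φ h).1,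
    e b fun φ h => (h0 φ h).2.1, e c fun φ h => (h0 φ h).2.2] at h2
  obtain ⟨u0, u1, u2, u3, u4, u5, u6, u7⟩ := aniso ha hb hc (by exact_mod_cast h2)
  exact Prod.ext (QuaternionAlgebra.ext (z _ f0 u0) (z _ f1 u1) (z _ f2 u2) (z _ f3 u3))
    (QuaternionAlgebra.ext (z _ f4 u4) (z _ f5 u5) (z _ f6 u6) (z _ f7 u7))

theorem all_eq {i j : Fin 3} (h : j ≠ i) (h1 : q j = q i) (h2 : q (j + 2) = q (i + 2)) :
    q 0 * q 1 * q 2 = q i ^ 3 := by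
  fin_cases i <;> fin_cases j <;> simp_all <;> ring

theorem St.qpos (h : St D d q g ρ s W) {κ : Om →+* ℂ} {γ : Gq} (hγ : Cj κ γ) (hG : γ ∈ D.G)
    (hp : ∀ i, D.π γ i = i → 0 < (κ (q i)).re) (i : Fin 3) (hi : (κ (q i)⁻¹).im = 0) :
    0 < (κ (q i)⁻¹).re := by
  have h1 := hγ.real.2 hi
  rw [map_inv₀, _root_.inv_inj] at h1
  have h2 : 0 < (κ (q i)).re := by
    by_cases h3 : D.π γ i = i
    · exact hp i h3
    · have h4 := (h.nf.qe γ hG i).symm.trans h1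
      have h5 := congrArg ρ h4
      rw [h.nf.qe ρ h.rG, h.nf.qe ρ h.rG, h.rp] at h5
      have h6 := congrArg κ ((all_eq h3 h4 h5).symm.trans h.q1)
      have h7 : κ (q i) = ((κ (q i)).re : ℂ) := Complex.ext rfl (hγ.real.1 h1)
      rw [map_pow, map_one, h7] at h6
      have h8 : (κ (q i)).re ^ 3 = 1 := by exact_mod_cast h6
      exact (Odd.pow_pos_iff (by decide)).1 (h8 ▸ one_pos)
  rw [map_inv₀, Complex.inv_re]
  exact div_pos h2 (Complex.normSq_pos.2 ((map_ne_zero κ).2 (h.qne i)))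

theorem St.dat [NumberField F] (h : St D d q g ρ s W) (k : Fld D d q g ι N r a b c e t)
    {l : List (F → F)} (hl : ∀ x, (∀ φ ∈ l, φ x = x) ↔ Fx D.G (ι x))
    (h1 : ∀ κ γ, Cj κ γ → γ ∈ D.G → (κ (d ^ 2)).re < 0 → (κ (g 0)).re < 0 ∧ (κ (g 1)).re < 0)
    (h2 : ∃ κ γ, Cj κ γ ∧ γ ∈ D.G ∧ (κ (d ^ 2)).re < 0 ∧ ∀ i, D.π γ i = i → 0 < (κ (q i)).re) :
    Dat l (r ρ) (r s) a b c e t := by
  obtain ⟨κ, γ, hγ, hG, h3, h4⟩ := h2
  have hw : Rl l (κ.comp ι) := fun x hx => hγ.real.1 ((hl x).1 hx γ hG)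
  have ha : ((κ.comp ι) a).re < 0 := by rwa [RingHom.comp_apply, k.ha]
  have q1 : ρ (q 1) = q 0 := by
    rw [h.nf.qe ρ h.rG, h.rp]
    rfl
  have q0 : ρ (q 0) = q 2 := by
    rw [h.nf.qe ρ h.rG, h.rp]
    rfl
  refine ⟨k.aut h.rG ?_ fun h5 => ?_, k.aut h.sG ?_ fun h5 => ?_, fun x => ι.injective ?_,
    dvn _ hw (fun φ hφ => ⟨(hl a).2 (k.ha ▸ h.sq) φ hφ, (hl b).2 (k.hb ▸ h.gfx 0) φ hφ,
      (hl c).2 (k.hc ▸ h.gfx 1) φ hφ⟩) ha ?_ ?_, ι.injective ?_, ι.injective ?_, ι.injective ?_,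
    ι.injective ?_, ι.injective ?_, fun w h5 h6 => ?_, _, hw, ha, fun n => ?_⟩
  · rw [pow_three]
    exact (k.mem _).2 h.cube
  · exact absurd (h.rp.symm.trans ((k.mem _).1 h5).2.1) (by decide)
  · rw [pow_two]
    exact (k.mem _).2 ⟨D.G.mul_mem h.sG h.sG, by rw [h.ok.pmul _ h.sG _ h.sG, h.sp, mul_one],
      by rw [AlgEquiv.mul_apply, h.sd, map_neg, h.sd, neg_neg]⟩
  · exact h.d0 (by linear_combination (2⁻¹ : Om) * (((k.mem _).1 h5).2.2.symm.trans h.sd))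
  · rw [← k.res ρ h.rG, ← k.res s h.sG, ← k.res s h.sG, ← k.res ρ h.rG]
    exact k.same h.ok (D.G.mul_mem h.rG h.sG) (D.G.mul_mem h.sG h.rG)
      (by rw [h.ok.pmul _ h.rG _ h.sG, h.ok.pmul _ h.sG _ h.rG, h.sp, mul_one, one_mul])
      (by rw [AlgEquiv.mul_apply, AlgEquiv.mul_apply, h.sd, map_neg, h.rd, h.sd]) x
  · rw [RingHom.comp_apply, k.hb]
    exact (h1 κ γ hγ hG h3).1
  · rw [RingHom.comp_apply, k.hc]
    exact (h1 κ γ hγ hG h3).2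
  · rw [map_pow, k.he, k.ha]
  · rw [← k.res ρ h.rG, k.he, h.rd]
  · rw [← k.res s h.sG, map_neg, k.he, h.sd]
  · rw [← k.res s h.sG, k.ht, map_inv₀, h.nf.qe s h.sG, h.sp, Equiv.Perm.one_apply]
  · rw [map_mul, map_mul, ← k.res ρ h.rG, ← k.res ρ h.rG, ← k.res ρ h.rG, k.ht, map_inv₀, q1,
      map_inv₀, q0, map_one, ← mul_inv, ← mul_inv, mul_comm (q 1), h.q1, inv_one]
  · obtain ⟨κ', γ', u1, u2, u3⟩ := exists_cj_of h.ok.opn (fun σ hσ => ((k.mem σ).1 hσ).1) k.fx w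
      fun x hx => h5 x ((hl x).2 hx)
    rw [← u3, k.ha] at h6
    rw [← u3, ← u3, k.hb, k.hc]
    exact h1 κ' γ' u1 u2 h6
  · obtain ⟨i, hi⟩ : ∃ i, ι ((r ρ)^[n] t) = (q i)⁻¹ := by
      induction n with
      | zero => exact ⟨1, k.ht⟩
      | succ n ih =>
        obtain ⟨i, hi⟩ := ih
        exact ⟨_, by
          rw [Function.iterate_succ_apply', ← k.res ρ h.rG, hi, map_inv₀, h.nf.qe ρ h.rG]⟩
    rw [RingHom.comp_apply, hi]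
    exact h.qpos hγ hG h4 i

end Vale.Agent.P011Z.Cl.D4fx

end
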