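import Vale.Agent.P011Z.Cl.Dat
import Vale.Agent.P011Z.Cl.ZD

/-!
Classification of the forms: block D4f, the group of a normal form and the first slot.
-/

open Matrix Module

noncomputable section

namespace Vale.Agent.P011Z.Cl.D4fx

open Vale.Agent.P011.D4 Vale.Agent.P011.D4.Oct Vale.Agent.P011.E6 Vale.Agent.P011.E6.Alb

/-- A normal form with chosen generators. -/
structure St (D : FD) (d : Om) (q g : Fin 3 → Om) (ρ s : Gq) (W : Set Gq) : Prop where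
  ok : D.OK
  nf : D.NF d q (diagonal g)
  q1 : q 0 * q 1 * q 2 = 1
  d0 : d ≠ 0
  sq : Fx D.G (d ^ 2)
  rG : ρ ∈ D.G
  rd : ρ d = d
  rp : D.π ρ = Equiv.addRight 2
  sG : s ∈ D.G
  sd : s d = -d
  sp : D.π s = 1
  wG : ∀ w ∈ W, w ∈ D.G ∧ w d = d ∧ D.π w = Equiv.swap 1 2
  wx : ∀ σ ∈ D.G, D.π σ = Equiv.swap 1 2 → W.Nonempty

/-- Elements of the spin group. -/
def Sp (u : J ≃ₗ[Om] J) : Prop := (∀ x, cub (u x) = cub x) ∧ ∀ i, u (ee i) = ee i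

/-- Commutation. -/
def Com (D : FD) (u : J → J) (σ : Gq) : Prop := ∀ x, u (D.f σ x) = D.f σ (u x)

/-- Commutation on the first slot. -/
def Com0 (D : FD) (u : J → J) (σ : Gq) : Prop :=
  ∀ y, u (D.f σ (ins 0 y)) = D.f σ (u (ins 0 y))

variable {D : FD} {d : Om} {q g : Fin 3 → Om} {ρ s σ τ : Gq} {W : Set Gq} {u : J ≃ₗ[Om] J}

theorem pinv (h : D.OK) (hσ : σ ∈ D.G) (hτ : τ ∈ D.G) : D.π (σ⁻¹ * τ) = (D.π σ)⁻¹ * D.π τ := by
  have h1 := h.pmul σ hσ _ (D.G.mul_mem (D.G.inv_mem hσ) hτ)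
  rw [mul_inv_cancel_left] at h1
  rw [h1, inv_mul_cancel_left]

theorem inv_d (h1 : σ d = τ d) : (σ⁻¹ * τ) d = d := by
  rw [AlgEquiv.mul_apply, ← h1, Cubx.inv_ap]

theorem fix0 : ∀ π : Equiv.Perm (Fin 3), π 0 = 0 → π = 1 ∨ π = Equiv.swap 1 2 := by decide

theorem St.ind0 (h : St D d q g ρ s W) {C : Gq → Prop}
    (hm : ∀ σ ∈ D.G, ∀ τ ∈ D.G, D.π σ 0 = 0 → D.π τ 0 = 0 → C σ → C τ → C (σ * τ))
    (hN : ∀ σ ∈ D.G, D.π σ = 1 → σ d = d → C σ) (hs : C s) (hw : ∀ w ∈ W, C w) :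
    ∀ σ ∈ D.G, D.π σ 0 = 0 → C σ := by
  have k : ∀ σ ∈ D.G, D.π σ = 1 → C σ := fun σ hσ h1 => by
    rcases eq_or_neg (h.sq σ hσ) with h2 | h2
    · exact hN σ hσ h1 h2
    · have h3 : D.π (s⁻¹ * σ) = 1 := by rw [pinv h.ok h.sG hσ, h.sp, h1, inv_one, mul_one]
      have h4 := D.G.mul_mem (D.G.inv_mem h.sG) hσ
      rw [← mul_inv_cancel_left s σ]
      exact hm s h.sG _ h4 (by rw [h.sp]; rfl) (by rw [h3]; rfl) hs
        (hN _ h4 h3 (inv_d (h.sd.trans h2.symm)))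
  intro σ hσ h1
  rcases fix0 _ h1 with h2 | h2
  · exact k σ hσ h2
  · obtain ⟨w, h3⟩ := h.wx σ hσ h2
    obtain ⟨w1, -, w3⟩ := h.wG w h3
    have h4 : D.π (w⁻¹ * σ) = 1 := by rw [pinv h.ok w1 hσ, w3, h2, inv_mul_cancel]
    have h5 := D.G.mul_mem (D.G.inv_mem w1) hσ
    rw [← mul_inv_cancel_left w σ]
    exact hm w w1 _ h5 (by rw [w3]; rfl) (by rw [h4]; rfl) (hw w h3) (k _ h5 h4)

theorem St.tr (h : St D d q g ρ s W) {C : Gq → Prop} (h0 : C 1) (h1 : C ρ) (h2 : C (ρ * ρ))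
    (i : Fin 3) : ∃ τ ∈ D.G, C τ ∧ D.π τ 0 = i := by
  fin_cases i
  · exact ⟨1, D.G.one_mem, h0, by rw [h.ok.one.1]; rfl⟩
  · exact ⟨ρ * ρ, D.G.mul_mem h.rG h.rG, h2, by rw [h.ok.pmul _ h.rG _ h.rG, h.rp]; rfl⟩
  · exact ⟨ρ, h.rG, h1, by rw [h.rp]; rfl⟩

theorem St.ind (h : St D d q g ρ s W) {C : Gq → Prop}
    (hm : ∀ σ ∈ D.G, ∀ τ ∈ D.G, C σ → C τ → C (σ * τ))
    (hN : ∀ σ ∈ D.G, D.π σ = 1 → σ d = d → C σ) (hr : C ρ) (hs : C s) (hw : ∀ w ∈ W, C w) :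
    ∀ σ ∈ D.G, C σ := by
  intro σ hσ
  obtain ⟨τ, h1, h2, h3⟩ := h.tr (hN 1 D.G.one_mem h.ok.one.1 rfl) hr (hm _ h.rG _ h.rG hr hr)
    (D.π σ 0)
  have h4 := D.G.mul_mem (D.G.inv_mem h1) hσ
  rw [← mul_inv_cancel_left τ σ]
  refine hm τ h1 _ h4 h2 (h.ind0 (fun σ a τ b _ _ => hm σ a τ b) hN hs hw _ h4 ?_)
  rw [pinv h.ok h1 hσ, Equiv.Perm.mul_apply, ← h3, Prcx.inv_app]

theorem ext_j {V : Type} [Add V] {a b : J → V} (a1 : ∀ x y, a (x + y) = a x + a y)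
    (b1 : ∀ x y, b (x + y) = b x + b y) (h1 : ∀ (t : Om) i, a (t • ee i) = b (t • ee i))
    (h2 : ∀ i y, a (ins i y) = b (ins i y)) (x : J) : a x = b x := by
  rw [jm_sum x, Fin.sum_univ_three]
  simp only [a1, b1, h1, h2]

theorem coc' (h : D.OK) (hσ : σ ∈ D.G) (hτ : τ ∈ D.G) : ∃ z : Fin 3 → Om, (∀ i, z i ≠ 0) ∧
    ∀ x, D.f (σ * τ) x = sc z (D.f σ (D.f τ x)) := by
  obtain ⟨z, hz, h1⟩ := h.coc σ hσ τ hτ
  exact ⟨z⁻¹, fun i => inv_ne_zero (hz i), fun x => by rw [h1, (Prcx.sc_inv hz _).2]⟩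

theorem com_one (h : D.OK) (hu : Sp u) : Com D u 1 := fun x => by
  obtain ⟨-, z, hz, h1⟩ := h.one
  rw [h1, h1, spin_sc hu.1 hu.2 hz]

theorem com_mul (h : D.OK) (hu : Sp u) (hσ : σ ∈ D.G) (hτ : τ ∈ D.G) (h1 : Com D u σ)
    (h2 : Com D u τ) : Com D u (σ * τ) := fun x => by
  obtain ⟨z, hz, h3⟩ := coc' h hσ hτ
  rw [h3, h3, spin_sc hu.1 hu.2 hz, h1, h2]

theorem com0_mul (h : D.OK) (hu : Sp u) (hσ : σ ∈ D.G) (hτ : τ ∈ D.G) (h0 : D.π τ 0 = 0)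
    (h1 : Com0 D u σ) (h2 : Com0 D u τ) : Com0 D u (σ * τ) := fun y => by
  obtain ⟨z, hz, h3⟩ := coc' h hσ hτ
  obtain ⟨t, -, ht⟩ := (h.prm τ hτ).slot (h.sim τ hτ)
  rw [h3, h3, spin_sc hu.1 hu.2 hz, ← h2, ht, h0, h1]

theorem com_of (h : D.OK) (hu : Sp u) (hσ : σ ∈ D.G)
    (h1 : ∀ i y, u (D.f σ (ins i y)) = D.f σ (u (ins i y))) : Com D u σ := by
  have hs := (h.sim σ hσ).toSemi
  refine ext_j (fun x y => by rw [hs.add, map_add]) (fun x y => by rw [map_add, hs.add])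
    (fun t i => ?_) h1
  obtain ⟨c, hc⟩ := h.prm σ hσ i
  rw [map_smul, hu.2, hs.smul, hc, map_smul, map_smul, hu.2]

/-- Every vector of a slot comes from the first slot. -/
theorem onto (h : D.OK) (hτ : τ ∈ D.G) (i : Fin 3) (y : O) :
    ∃ x, D.f τ (ins i x) = ins (D.π τ i) y := by
  obtain ⟨t, h1, ht⟩ := (h.prm τ hτ).slot (h.sim τ hτ)
  obtain ⟨x, rfl⟩ := (h1 i).bij.2 y
  exact ⟨x, ht i x⟩

/-- The criterion for the rational points. -/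
theorem St.mem (h : St D d q g ρ s W) (hu : Sp u) (hr : Com D u ρ)
    (hN : ∀ σ ∈ D.G, D.π σ = 1 → σ d = d → Com0 D u σ) (hs : Com0 D u s)
    (hw : ∀ w ∈ W, Com0 D u w) : u ∈ D.grp := by
  have k := h.ind0 (fun σ a τ b _ c => com0_mul h.ok hu a b c) hN hs hw
  have tr := h.tr (com_one h.ok hu) hr (com_mul h.ok hu h.rG h.rG hr hr)
  refine ⟨hu.1, hu.2, fun φ hφ => com_of h.ok hu hφ fun i y => ?_⟩
  obtain ⟨τ, t1, t2, t3⟩ := tr i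
  obtain ⟨υ, v1, v2, v3⟩ := tr (D.π φ i)
  obtain ⟨x, hx⟩ := onto h.ok t1 0 y
  have h1 := D.G.mul_mem hφ t1
  have h2 := D.G.mul_mem (D.G.inv_mem v1) h1
  have h3 := k _ h2 (by
    rw [pinv h.ok v1 h1, h.ok.pmul φ hφ τ t1, Equiv.Perm.mul_apply, Equiv.Perm.mul_apply, t3, ← v3,
      Prcx.inv_app])
  obtain ⟨z, hz, h4⟩ := h.ok.coc φ hφ τ t1
  obtain ⟨z', hz', h5⟩ := coc' h.ok v1 h2
  rw [mul_inv_cancel_left] at h5
  rw [← t3, ← hx, t2, h4, h4, h5, h5, spin_sc hu.1 hu.2 hz, spin_sc hu.1 hu.2 hz', v2, h3]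

/-- A linear map which vanishes on the first slot. -/
theorem St.vanish (h : St D d q g ρ s W) {A : Module.End Om J} (h1 : ∀ i, A (ee i) = 0)
    (h2 : Com D A ρ) (h3 : ∀ y, A (ins 0 y) = 0) (x : J) : A x = 0 := by
  have k : ∀ i, (∀ y, A (ins i y) = 0) → ∀ y, A (ins (i + 2) y) = 0 := fun i hi y => by
    obtain ⟨x, hx⟩ := onto h.ok h.rG i y
    rw [h.rp] at hx
    have h4 := h2 (ins i x)
    rwa [hx, hi, (h.ok.sim ρ h.rG).toSemi.zero] at h4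
  refine ext_j (b := fun _ => 0) A.map_add (fun _ _ => (add_zero 0).symm)
    (fun t i => by rw [map_smul, h1, smul_zero]) (fun i => ?_) x
  fin_cases i
  exacts [h3, k 2 (k 0 h3), k 0 h3]

theorem St.uni (h : St D d q g ρ s W) (hu : u ∈ D.grp) {V : Type} {j : V → O}
    (hj : Submodule.span Om (Set.range j) = ⊤) {m : ℕ}
    (h1 : ∀ y, (fun y => u y - y)^[m + 1] (ins 0 (j y)) = 0) (x : J) :
    (fun y => u y - y)^[m + 1] x = 0 := by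
  have e : ∀ n x, ((u.toLinearMap - 1 : Module.End Om J) ^ n) x = (fun y => u y - y)^[n] x :=
    fun n x => Module.End.pow_apply _ n x
  have hs := (h.ok.sim ρ h.rG).toSemi
  have h2 : Function.Semiconj (D.f ρ) (fun y => u y - y) fun y => u y - y := fun y => by
    change D.f ρ (u y - y) = u (D.f ρ y) - D.f ρ y
    rw [hs.sub, hu.2.2 ρ h.rG]
  have h3 : ((u.toLinearMap - 1 : Module.End Om J) ^ (m + 1)) ∘ₗ (ins_lin 0).mk' _ = 0 :=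
    LinearMap.ext_on_range hj fun y => (e _ _).trans (h1 y)
  rw [← e]
  refine h.vanish (fun i => ?_) (fun x => ?_) (LinearMap.congr_fun h3) x
  · rw [pow_succ, Module.End.mul_apply]
    change (_ : Module.End Om J) (u (ee i) - ee i) = 0
    rw [hu.2.1, sub_self, map_zero]
  · rw [e, e]
    exact (h2.iterate_right _ x).symm

theorem slot (hu : Sp u) : ∃ t : Fin 3 → O → O, (∀ i, Semi 1 (t i)) ∧
    (∀ i y, u (ins i y) = ins i (t i y)) ∧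
      ∀ x y, star (t 1 x * t 2 y) = t 0 (star (x * y)) := by
  have h1 : ∀ x, cub (u x) = 1 * (1 : Gq) (cub x) := fun x => by
    rw [hu.1, one_mul, AlgEquiv.one_apply]
  have h2 : ∀ i, u (ee i) = (1 : Fin 3 → Om) i • ee i := fun i => by
    rw [hu.2, Pi.one_apply, one_smul]
  obtain ⟨t, h3, h4⟩ := Prm.slot (π := 1) ⟨semi_lin u, 1, one_ne_zero, h1⟩ fun i => ⟨1, h2 i⟩
  refine ⟨t, h3, h4, fun x y => ?_⟩
  have h5 := (Prm.triple (semi_lin u) one_ne_zero h1 h2 h4).2.2 0 x y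
  rwa [Pi.one_apply, one_smul] at h5

theorem com_iff {F : J → J} {c : Om} (hc : c ≠ 0) {i k : Fin 3} {φ a b : O → O}
    (hF : ∀ y, F (ins i y) = c • ins k (φ y)) (ha : ∀ y, u (ins i y) = ins i (a y))
    (hb : ∀ y, u (ins k y) = ins k (b y)) (y : O) :
    u (F (ins i y)) = F (u (ins i y)) ↔ b (φ y) = φ (a y) := by
  rw [hF, map_smul, hb, ha, hF]
  exact ⟨fun h => Prcx.ins_inj (smul_right_injective J hc h), fun h => by rw [h]⟩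

theorem St.std (h : St D d q g ρ s W) (hσ : σ ∈ D.G) (hd : σ d = d) (i : Fin 3) :
    ∃ c : Om, c ≠ 0 ∧ ∀ y, D.f σ (ins i y) = c • ins (D.π σ i) (sgs (D.π σ) (oa σ y)) := by
  obtain ⟨z, hz, h1⟩ := h.nf.std σ hσ hd
  exact ⟨_, hz _, fun y => by
    rw [h1, (hur_props (oa_semi σ) (oa_mul σ)).2.2.2.2.2, sc_ins]⟩

theorem St.stdN (h : St D d q g ρ s W) (hσ : σ ∈ D.G) (h1 : D.π σ = 1) (hd : σ d = d) :
    ∃ c : Om, c ≠ 0 ∧ ∀ y, D.f σ (ins 0 y) = c • ins 0 (oa σ y) := by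
  obtain ⟨c, hc, h2⟩ := h.std hσ hd 0
  simp only [h1, Prcx.sgs_one, Equiv.Perm.one_apply] at h2
  exact ⟨c, hc, h2⟩

theorem St.stdR (h : St D d q g ρ s W) (i : Fin 3) :
    ∃ c : Om, c ≠ 0 ∧ ∀ y, D.f ρ (ins i y) = c • ins (i + 2) (oa ρ y) := by
  obtain ⟨c, hc, h2⟩ := h.std h.rG h.rd i
  have h3 : Equiv.Perm.sign (Equiv.addRight (2 : Fin 3)) = 1 := by decide
  simp only [h.rp, sgs, if_pos h3] at h2
  exact ⟨c, hc, h2⟩

theorem St.stdW (h : St D d q g ρ s W) {w : Gq} (hw : w ∈ W) :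
    ∃ c : Om, c ≠ 0 ∧ ∀ y, D.f w (ins 0 y) = c • ins 0 (star (oa w y)) := by
  obtain ⟨w1, w2, w3⟩ := h.wG w hw
  obtain ⟨c, hc, h2⟩ := h.std w1 w2 0
  have h3 : ¬ Equiv.Perm.sign (Equiv.swap (1 : Fin 3) 2) = 1 := by decide
  simp only [w3, sgs, if_neg h3] at h2
  exact ⟨c, hc, h2⟩

theorem oa_star (σ : Gq) (y : O) : oa σ (star y) = star (oa σ y) :=
  (hom_props (oa_semi σ) (oa_mul σ)).2.1 y

theorem oa_norm (σ : Gq) (y : O) : norm (oa σ y) = σ (norm y) :=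
  (hom_props (oa_semi σ) (oa_mul σ)).2.2.1 y

/-- Compatibility with the cyclic product. -/
def TriO (ρ : Gq) (T : O → O) : Prop := ∀ x y, T (oa ρ (star x) * oa ρ (oa ρ (star y))) =
  oa ρ (star (T x)) * oa ρ (oa ρ (star (T y)))

theorem St.tri (h : St D d q g ρ s W) (hu : u ∈ D.grp) : ∃ T : O ≃ₗ[Om] O,
    (∀ y, u (ins 0 y) = ins 0 (T y)) ∧ TriO ρ T := by
  obtain ⟨t, h1, h2, h3⟩ := slot ⟨hu.1, hu.2.1⟩
  obtain ⟨T, hT⟩ := (h1 0).lin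
  have k : ∀ i y, t (i + 2) (oa ρ y) = oa ρ (t i y) := fun i y => by
    obtain ⟨c, hc, h4⟩ := h.stdR i
    exact (com_iff hc h4 (h2 i) (h2 _) y).1 (hu.2.2 ρ h.rG _)
  have k0 : ∀ y, t 2 (oa ρ y) = oa ρ (t 0 y) := k 0
  have k2 : ∀ y, t 1 (oa ρ y) = oa ρ (t 2 y) := k 2
  refine ⟨T, fun y => by rw [hT, h2], fun x y => ?_⟩
  have h4 := h3 (oa ρ (oa ρ y)) (oa ρ x)
  rw [k2, k0, k0, star_mul, star_mul] at h4
  simp only [hT, oa_star]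
  exact h4.symm

theorem conj_lin {a : O → O} (ha : Semi σ a) (T : O ≃ₗ[Om] O) :
    ∃ T' : O ≃ₗ[Om] O, ∀ y, T' (a y) = a (T y) := by
  obtain ⟨b, hb, h1, -⟩ := ha.inv
  have h2 := ha.comp ((semi_lin T).comp hb)
  rw [one_mul, mul_inv_cancel] at h2
  obtain ⟨T', h3⟩ := h2.lin
  exact ⟨T', fun y => by rw [h3, h1]⟩

theorem norm_of_tri {T : O ≃ₗ[Om] O} (h : TriO ρ T)
    (h3 : ∀ y, T (oa ρ (oa ρ (oa ρ y))) = oa ρ (oa ρ (oa ρ (T y)))) (x : O) :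
    norm (T x) = norm x := by
  have k : ∀ x y : O, oa ρ (star (oa ρ (star x) * oa ρ (oa ρ (star y)))) * oa ρ (oa ρ (star x)) =
      ρ (ρ (norm x)) • oa ρ (oa ρ (oa ρ y)) := fun x y => by
    simp only [oa_star, star_mul, star_star, oa_mul]
    rw [mul_mul_star, oa_norm, oa_norm]
  have h1 := h (oa ρ (star x) * oa ρ (oa ρ (star 1))) x
  rw [h x 1, k, k, map_smul, h3] at h1
  have h2 : oa ρ (oa ρ (oa ρ (T 1))) ≠ 0 := (oa_semi ρ).ne ((oa_semi ρ).ne ((oa_semi ρ).ne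
    ((semi_lin T).ne fun h4 => by simpa using congrArg Oct.norm h4)))
  exact (ρ.injective (ρ.injective (smul_left_injective Om h2 h1))).symm

theorem St.cube (h : St D d q g ρ s W) :
    ρ * (ρ * ρ) ∈ D.G ∧ D.π (ρ * (ρ * ρ)) = 1 ∧ (ρ * (ρ * ρ)) d = d := by
  have h1 := D.G.mul_mem h.rG h.rG
  refine ⟨D.G.mul_mem h.rG h1, ?_, ?_⟩
  · rw [h.ok.pmul _ h.rG _ h1, h.ok.pmul _ h.rG _ h.rG, h.rp]
    decide
  · rw [AlgEquiv.mul_apply, AlgEquiv.mul_apply, h.rd, h.rd, h.rd]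

/-- The spin element with a given first component. -/
theorem St.build (h : St D d q g ρ s W) {T : O ≃ₗ[Om] O} (hT : TriO ρ T)
    (hN : ∀ σ ∈ D.G, D.π σ = 1 → σ d = d → ∀ y, T (oa σ y) = oa σ (T y)) :
    ∃ u : J ≃ₗ[Om] J, Sp u ∧ Com D u ρ ∧ ∀ y, u (ins 0 y) = ins 0 (T y) := by
  have h3 : ∀ y, T (oa ρ (oa ρ (oa ρ y))) = oa ρ (oa ρ (oa ρ (T y))) :=
    hN _ h.cube.1 h.cube.2.1 h.cube.2.2
  have hb := (oa_semi ρ).bij.2
  obtain ⟨T2, k2⟩ := conj_lin (oa_semi ρ) T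
  obtain ⟨T1, k1⟩ := conj_lin (oa_semi ρ) T2
  have n0 := norm_of_tri hT h3
  have n2 : ∀ y, norm (T2 y) = norm y := fun y => by
    obtain ⟨x, rfl⟩ := hb y
    rw [k2, oa_norm, oa_norm, n0]
  have n1 : ∀ y, norm (T1 y) = norm y := fun y => by
    obtain ⟨x, rfl⟩ := hb y
    rw [k1, oa_norm, oa_norm, n2]
  obtain ⟨u, u1, u2, u3⟩ := sim_of_triple (c := 1) (fun _ => one_ne_zero) ![T, T1, T2]
    (fun i y => by
      rw [Pi.one_apply, Pi.one_apply, one_mul, one_mul]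
      fin_cases i
      exacts [n0 y, n1 y, n2 y])
    (fun x y => by
      obtain ⟨x, rfl⟩ := hb x
      obtain ⟨x, rfl⟩ := hb x
      obtain ⟨y, rfl⟩ := hb y
      have h4 := hT y x
      simp only [oa_star] at h4
      change star (T1 _ * T2 _) = (1 : Om) • T _
      rw [k1, k2, k2, one_smul, star_mul, star_mul, h4])
  have hu : Sp u := ⟨fun x => by simpa using u1 x, fun i => by simpa using u2 i⟩
  refine ⟨u, hu, com_of h.ok hu h.rG fun i y => ?_, u3 0⟩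
  obtain ⟨c, hc, h4⟩ := h.stdR i
  refine (com_iff hc h4 (u3 i) (u3 _) y).2 ?_
  fin_cases i
  · exact k2 y
  · obtain ⟨y, rfl⟩ := hb y
    obtain ⟨y, rfl⟩ := hb y
    change T _ = oa ρ (T1 _)
    rw [h3, k1, k2]
  · exact k1 y

end Vale.Agent.P011Z.Cl.D4fx

end
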