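import Vale.Agent.P011Z.Cl.D4f.A

/-!
Classification of the forms: block D4f, the basic triple and the twisted map.
-/

open Matrix Module

noncomputable section

namespace Vale.Agent.P011Z.Cl.D4fx

open Vale.Agent.P011.D4 Vale.Agent.P011.D4.Oct Vale.Agent.P011.E6 Vale.Agent.P011.E6.Alb
open ZDx

variable {D : FD} {d : Om} {q g : Fin 3 → Om} {ρ s σ : Gq} {W : Set Gq}

/-- The automorphism which exchanges the idempotents. -/
def bt (s : Gq) (H : Matrix (Fin 3) (Fin 3) Om) (y : O) : O :=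
  zorn (s (zm y)) (s (zp y)) (Hᵀ⁻¹ *ᵥ (s ∘ zb y)) (H *ᵥ (s ∘ za y))

theorem comp_zero (s : Gq) : s ∘ (0 : Fin 3 → Om) = 0 := funext fun _ => map_zero s

theorem comp_single (s : Gq) (i : Fin 3) (t : Om) :
    s ∘ (Pi.single i t : Fin 3 → Om) = Pi.single i (s t) :=
  funext fun j => Pi.apply_single (fun _ => s) (fun _ => map_zero s) i t j

theorem bt_props (s : Gq) {H : Matrix (Fin 3) (Fin 3) Om} (h : H.det = -1) :
    Semi s (bt s H) ∧ ∀ x y, bt s H (x * y) = bt s H x * bt s H y := by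
  obtain ⟨h1, h2⟩ := swJ_props s (q := 1) (H := H) (by simp [h])
  obtain ⟨a, a1, a2, a3⟩ := Prcx.al_of_ones h1 h2 (j_ext (fun i => by
    simp [swJ, dg_jm, ones]) fun i => by
      simp only [swJ, sl_jm, ones, Pi.one_apply, z_one, zp_zorn, zm_zorn, za_zorn, zb_zorn, map_one,
        mul_one, comp_zero, mulVec_zero, smul_zero])
  have h3 : bt s H = a := funext fun y => by
    have h4 := congrArg (fun x => sl x 0) (a3 (ins 0 y))
    simp only [swJ, sl_jm, Prcx.sl_al, Prcx.sl_ins_self, Pi.one_apply, one_mul, one_smul] at h4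
    exact h4
  rw [h3]
  exact ⟨a1, a2⟩

theorem m_mul (t t' : Om) (y : O) : zorn t 1 0 0 * y * zorn t' 1 0 0 =
    zorn (t * t' * zp y) (zm y) (t • za y) (t' • zb y) := by
  apply z_ext <;> simp only [(z_mul _ _).1, (z_mul _ _).2.1, (z_mul _ _).2.2.1, (z_mul _ _).2.2.2,
    zp_zorn, zm_zorn, za_zorn, zb_zorn, zero_dotProduct, dotProduct_zero, add_zero, one_mul,
    mul_one, smul_zero, map_zero, LinearMap.zero_apply, sub_zero, zero_add, one_smul]
  ring

theorem St.qne (h : St D d q g ρ s W) (i : Fin 3) : q i ≠ 0 := fun h0 => by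
  have h1 := h.q1
  rw [← Prcx.prod_three q i, h0, zero_mul, zero_mul] at h1
  exact zero_ne_one h1

theorem St.det (h : St D d q g ρ s W) : (diagonal g).det = -1 := by
  have h1 := h.nf.det
  rwa [h.q1, one_mul] at h1

theorem St.gne (h : St D d q g ρ s W) (i : Fin 3) : g i ≠ 0 := fun h0 => by
  have h1 := h.det
  rw [det_diagonal, Finset.prod_eq_zero (Finset.mem_univ i) h0] at h1
  exact one_ne_zero (neg_eq_zero.1 h1.symm)

theorem St.gfx (h : St D d q g ρ s W) (i : Fin 3) : Fx D.G (g i) := fun σ hσ => by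
  have h1 : (diagonal g).map σ = diagonal g := by
    rcases eq_or_neg (h.sq σ hσ) with h2 | h2
    · exact h.nf.Hf σ hσ h2
    · rw [h.nf.Hs σ hσ h2, diagonal_transpose]
  have h3 := congrFun (congrFun h1 i) i
  rwa [map_apply, diagonal_apply_eq] at h3

/-- The twisted map on the first slot. -/
def tw (s : Gq) (q g : Fin 3 → Om) (y : O) : O :=
  zorn (q 1)⁻¹ 1 0 0 * bt s (diagonal g) y * zorn ((q 1)⁻¹ * (q 0)⁻¹) 1 0 0

theorem St.stdS (h : St D d q g ρ s W) :
    ∃ c : Om, c ≠ 0 ∧ ∀ y, D.f s (ins 0 y) = c • ins 0 (tw s q g y) := by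
  obtain ⟨z, hz, h1⟩ := h.nf.sw s h.sG h.sd h.sp
  obtain ⟨h2, h3⟩ := swJ_props s h.nf.det
  obtain ⟨t, -, ht⟩ := h3.slot h2
  have q0 := h.qne 0
  have q1 := h.qne 1
  have q2 : q 2 = (q 1)⁻¹ * (q 0)⁻¹ := by
    field_simp
    linear_combination h.q1
  refine ⟨z 0 * q 1, mul_ne_zero (hz 0) q1, fun y => ?_⟩
  have h4 := congrArg (fun x => sl x 0) (ht 0 y)
  simp only [swJ, sl_jm, Equiv.Perm.one_apply, Prcx.sl_ins_self] at h4
  rw [h1, ht, Equiv.Perm.one_apply, sc_ins, mul_smul, ← (ins_lin 0).map_smul (q 1), ← h4, tw, m_mul]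
  congr 2
  apply z_ext <;> simp only [bt, zp_smul, zm_smul, za_smul, zb_smul, zp_zorn, zm_zorn, za_zorn,
    zb_zorn, smul_smul, zero_add, q2]
  · field_simp
  · rw [mul_inv_cancel₀ q1, one_smul]

theorem St.tw_semi (h : St D d q g ρ s W) : (∀ x y, tw s q g (x + y) = tw s q g x + tw s q g y) ∧
    ∀ (t : Om) x, tw s q g (t • x) = s t • tw s q g x := by
  have h1 := (bt_props s h.det).1
  exact ⟨fun x y => by rw [tw, tw, tw, h1.add, mul_add, add_mul],
    fun t x => by rw [tw, tw, h1.smul, mul_smul_oct, smul_mul_oct]⟩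

/-- The first element of the triple. -/
def ti (d : Om) : O := zorn d (-d) 0 0

/-- The other elements of the triple. -/
def tj (n : Fin 3) (b : Om) : O := zorn 0 0 (Pi.single n 1) (Pi.single n b)

theorem triple {b c : Om} (hd : d ≠ 0) (hb : b ≠ 0) (hc : c ≠ 0) : Triple (ti d) (tj 0 b) (tj 1 c)
    (Units.mk0 (d ^ 2) (pow_ne_zero 2 hd)) (Units.mk0 b hb) (Units.mk0 c hc) := by
  refine ⟨⟨?_, ?_, ?_, ?_, ?_⟩, ⟨?_, ?_, ?_, ?_⟩, ?_⟩ <;>
    simp [ti, tj, bil_z, norm_z, z_one, (z_mul _ _).1, (z_mul _ _).2.1, (z_mul _ _).2.2.1,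
      (z_mul _ _).2.2.2, zp_zorn, zm_zorn, za_zorn, zb_zorn, sq]

theorem oa_zorn (σ : Gq) (p m : Om) (a b : Fin 3 → Om) :
    oa σ (zorn p m a b) = zorn (σ p) (σ m) (σ ∘ a) (σ ∘ b) := by
  apply z_ext <;> simp only [(z_oa σ _).1, (z_oa σ _).2.1, (z_oa σ _).2.2.1, (z_oa σ _).2.2.2,
    zp_zorn, zm_zorn, za_zorn, zb_zorn]

theorem oa_ti (h : σ d = d) : oa σ (ti d) = ti d := by
  rw [ti, oa_zorn, map_neg, h, comp_zero]

theorem oa_tj {b : Om} (h : σ b = b) (n : Fin 3) : oa σ (tj n b) = tj n b := by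
  rw [tj, oa_zorn, map_zero, comp_single, comp_single, map_one, h]

theorem bt_ti (h : s d = -d) (H : Matrix (Fin 3) (Fin 3) Om) : bt s H (ti d) = ti d := by
  rw [bt, ti, zp_zorn, zm_zorn, za_zorn, zb_zorn, map_neg, h, neg_neg, comp_zero, mulVec_zero,
    mulVec_zero]

theorem St.bt_tj (h : St D d q g ρ s W) (n : Fin 3) :
    bt s (diagonal g) (tj n (g n)) = tj n (g n) := by
  have h1 : diagonal g *ᵥ Pi.single n 1 = Pi.single n (g n) := by
    rw [diagonal_mulVec_single, mul_one]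
  have h2 : IsUnit (diagonal g).det := by
    rw [h.det]
    exact isUnit_one.neg
  rw [bt, tj, zp_zorn, zm_zorn, za_zorn, zb_zorn, map_zero, comp_single, comp_single, map_one,
    h.gfx n s h.sG, h1, diagonal_transpose]
  conv_lhs => rw [← h1, mulVec_mulVec, nonsing_inv_mul _ h2, one_mulVec, h1]

/-- The cyclic product. -/
def cy (ρ : Gq) (x y : O) : O := oa ρ (star x) * oa ρ (oa ρ (star y))

theorem cy_add_left (x y z : O) : cy ρ (x + y) z = cy ρ x z + cy ρ y z := by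
  rw [cy, cy, cy, star_add, (oa_semi ρ).add, add_mul]

theorem cy_add_right (x y z : O) : cy ρ x (y + z) = cy ρ x y + cy ρ x z := by
  rw [cy, cy, cy, star_add, (oa_semi ρ).add, (oa_semi ρ).add, mul_add]

theorem cy_smul_left (t : Om) (x y : O) : cy ρ (t • x) y = ρ t • cy ρ x y := by
  rw [cy, cy, star_smul_oct, (oa_semi ρ).smul, smul_mul_oct]

theorem cy_smul_right (t : Om) (x y : O) : cy ρ x (t • y) = ρ (ρ t) • cy ρ x y := by
  rw [cy, cy, star_smul_oct, (oa_semi ρ).smul, (oa_semi ρ).smul, mul_smul_oct]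

end Vale.Agent.P011Z.Cl.D4fx

end
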