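import Vale.Agent.P011Z.Cl.D4f.B
import Vale.Agent.P011Z.Cl.Brg

/-!
Classification of the forms: block D4f, comparison of the groups.
-/

open Matrix Module

noncomputable section

namespace Vale.Agent.P011Z.Cl.D4fx

open Vale.Agent.P011.D4 Vale.Agent.P011.D4.Oct Vale.Agent.P011.E6 Vale.Agent.P011.E6.Alb
open Vale.Agent.P011.H900 (Oc om oc ap me Tri Twi Swp)

variable {D : FD} {d : Om} {q g : Fin 3 → Om} {ρ s σ : Gq} {W : Set Gq}
  {F : Type} [Field F] [NumberField F] {ι : F →+* Om}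

/-- The number field of the model. -/
structure Fld (D : FD) (d : Om) (q g : Fin 3 → Om) (ι : F →+* Om) (N : Subgroup Gq)
    (r : Gq → F → F) (a b c e t : F) : Prop where
  opn : Opn N
  mem : ∀ σ, σ ∈ N ↔ σ ∈ D.G ∧ D.π σ = 1 ∧ σ d = d
  fx : ∀ y, Fx N y ↔ ∃ x, ι x = y
  res : ∀ σ ∈ D.G, ∀ x, σ (ι x) = ι (r σ x)
  ha : ι a = d ^ 2
  hb : ι b = g 0
  hc : ι c = g 1
  he : ι e = d
  ht : ι t = (q 1)⁻¹

variable {N : Subgroup Gq} {r : Gq → F → F} {a b c e t : F}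

theorem comm_iff {V : Type} [AddCommGroup V] [Module F V] {j : V → O} (hj : Chart ι j)
    {T : O ≃ₗ[Om] O} {f : V → V} (hT : ∀ x, T (j x) = j (f x)) {φ : O → O} {ψ : V → V}
    {κ : Om → Om} (h1 : ∀ x y, φ (x + y) = φ x + φ y) (h2 : ∀ (t : Om) x, φ (t • x) = κ t • φ x)
    (h3 : ∀ x, φ (j x) = j (ψ x)) : (∀ y, T (φ y) = φ (T y)) ↔ ∀ x, f (ψ x) = ψ (f x) := by
  refine ⟨fun h x => hj.inj (by rw [← hT, ← h3, h, hT, h3]), fun h => ?_⟩
  exact Extx.eq0 hj (σ := κ) (fun x y => by rw [h1, map_add]) (fun t x => by rw [h2, map_smul])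
    (fun x y => by rw [map_add, h1]) (fun t x => by rw [map_smul, h2])
    fun x => by rw [h3, hT, hT, h3, h]

theorem tri_iff {V : Type} [AddCommGroup V] [Module F V] {j : V → O} (hj : Chart ι j)
    {T : O ≃ₗ[Om] O} {f : V → V} (hT : ∀ x, T (j x) = j (f x)) {ψ : V → V → V}
    (h3 : ∀ x y, cy ρ (j x) (j y) = j (ψ x y)) :
    TriO ρ T ↔ ∀ x y, f (ψ x y) = ψ (f x) (f y) := by
  change (∀ x y, T (cy ρ x y) = cy ρ (T x) (T y)) ↔ _
  refine ⟨fun h x y => hj.inj (by rw [← hT, ← h3, h, hT, hT, h3]), fun h x => ?_⟩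
  refine Extx.eq0 hj (σ := fun t => ρ (ρ t)) (fun x y => by rw [cy_add_right, map_add])
    (fun t x => by rw [cy_smul_right, map_smul]) (fun x y => by rw [map_add, cy_add_right])
    (fun t x => by rw [map_smul, cy_smul_right]) fun y => ?_
  exact Extx.eq0 hj (σ := ρ) (f := fun x => T (cy ρ x (j y))) (g := fun x => cy ρ (T x) (T (j y)))
    (fun x y => by rw [cy_add_left, map_add])
    (fun t x => by rw [cy_smul_left, map_smul]) (fun x y => by rw [map_add, cy_add_left])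
    (fun t x => by rw [map_smul, cy_smul_left]) (fun x => by rw [h3, hT, hT, hT, h3, h]) x

omit [NumberField F] in
theorem jo_me (hd : d ≠ 0) (he : ι e = d) (j l : O) (x : F) :
    jo ι (ti d) j l (me e x : Oc a b) = zorn (ι x) 1 0 0 := by
  have h1 : jo ι (ti d) j l (me e x : Oc a b) =
      ((ι x + 1) / 2) • (1 : O) + ((ι x - 1) / (2 * d)) • ti d := by
    simp [jo, me, he, map_ofNat]
  rw [h1, z_one, ti]
  apply z_ext <;> simp only [ZDx.zp_add, ZDx.zm_add, ZDx.za_add, ZDx.zb_add, ZDx.zp_smul,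
    ZDx.zm_smul, ZDx.za_smul, ZDx.zb_smul, ZDx.zp_zorn, ZDx.zm_zorn, ZDx.za_zorn, ZDx.zb_zorn,
    smul_zero, add_zero] <;> field_simp <;> ring

omit [NumberField F] in
theorem St.trp (h : St D d q g ρ s W) (k : Fld D d q g ι N r a b c e t) :
    Trp ι a b c (ti d) (tj 0 (g 0)) (tj 1 (g 1)) :=
  ⟨_, _, _, triple h.d0 (h.gne 0) (h.gne 1), k.ha, k.hb, k.hc⟩

/-- The group of the datum is the group of the model. -/
theorem St.core (h : St D d q g ρ s W) (k : Fld D d q g ι N r a b c e t)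
    {P : (Oc a b → Oc a b) → Prop} (hP : ∀ f, P f ↔ Tri c (r ρ) f ∧ Twi c (r ρ) (r s) e t f ∧
      ∀ w ∈ W, Swp (r w) f) (hA : AniL D.grp) : Ani P ∧ (Simp P → SimpL D.grp) := by
  have tp := h.trp k
  have ch := tp.chart
  set j : Oc a b → O := jo ι (ti d) (tj 0 (g 0)) (tj 1 (g 1)) with hj
  have a1 : ∀ σ ∈ D.G, σ d = d → ∀ x, oa σ (j x) = j (ap (r σ) x) := fun σ hσ hd =>
    jo_ap (oa_semi σ) (oa_mul σ) (oa_ti hd) (oa_tj (h.gfx 0 σ hσ) 0) (oa_tj (h.gfx 1 σ hσ) 1)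
      (k.res σ hσ)
  have a2 := (tp.fix (ha_oa k.opn) k.fx (fun σ hσ => oa_ti ((k.mem σ).1 hσ).2.2)
    (fun σ hσ => oa_tj (h.gfx 0 σ ((k.mem σ).1 hσ).1) 0)
    fun σ hσ => oa_tj (h.gfx 1 σ ((k.mem σ).1 hσ).1) 1).1
  have a3 : ∀ x y, cy ρ (j x) (j y) =
      j (om c (ap (r ρ) (oc x)) (ap (r ρ) (ap (r ρ) (oc y)))) := fun x y => by
    rw [hj, tp.mul, cy, ← tp.star, ← tp.star, ← hj, a1 ρ h.rG h.rd, a1 ρ h.rG h.rd, a1 ρ h.rG h.rd]
  have a4 : ∀ x, tw s q g (j x) =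
      j (om c (om c (me e t) (ap (r s) x)) (me e (t * r ρ t))) := fun x => by
    have h1 : ρ (q 1) = q 0 := by
      rw [h.nf.qe ρ h.rG, h.rp]
      rfl
    rw [hj, tp.mul, tp.mul, jo_me h.d0 k.he, jo_me h.d0 k.he, map_mul, ← k.res ρ h.rG, k.ht,
      map_inv₀, h1, tw, jo_ap (bt_props s h.det).1 (bt_props s h.det).2 (bt_ti h.sd _) (h.bt_tj 0)
        (h.bt_tj 1) (k.res s h.sG)]
  have a5 : ∀ w ∈ W, ∀ x, star (oa w (j x)) = j (ap (r w) (oc x)) := fun w hw x => by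
    rw [← oa_star, hj, ← tp.star, ← hj, a1 w (h.wG w hw).1 (h.wG w hw).2.1]
  have c1 : ∀ {u : J ≃ₗ[Om] J} {T : O ≃ₗ[Om] O} {f : Oc a b → Oc a b},
      (∀ y, u (ins 0 y) = ins 0 (T y)) → (∀ x, T (j x) = j (f x)) →
      (Com0 D u s ↔ Twi c (r ρ) (r s) e t f) ∧ ∀ w ∈ W, (Com0 D u w ↔ Swp (r w) f) := by
    intro u T f h1 h2
    refine ⟨?_, fun w hw => ?_⟩
    · obtain ⟨z, hz, h3⟩ := h.stdS
      exact (forall_congr' (com_iff hz h3 h1 h1)).trans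
        (comm_iff ch h2 h.tw_semi.1 h.tw_semi.2 a4)
    · obtain ⟨z, hz, h3⟩ := h.stdW hw
      exact (forall_congr' (com_iff hz h3 h1 h1)).trans
        (comm_iff ch h2 (κ := w) (fun x y => by rw [(oa_semi w).add, star_add])
          (fun t x => by rw [(oa_semi w).smul, star_smul_oct]) (a5 w hw))
  have c2 : ∀ {u : J ≃ₗ[Om] J} {T : O ≃ₗ[Om] O}, (∀ y, u (ins 0 y) = ins 0 (T y)) →
      ∀ σ ∈ D.G, D.π σ = 1 → σ d = d → (Com0 D u σ ↔ ∀ y, T (oa σ y) = oa σ (T y)) := by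
    intro u T h1 σ hσ h2 h3
    obtain ⟨z, hz, h4⟩ := h.stdN hσ h2 h3
    exact forall_congr' (com_iff hz h4 h1 h1)
  obtain ⟨-, E, hE⟩ := xfer P D.grp (fun x => ins 0 (j x))
    (fun x y hxy => ch.inj (Prcx.ins_inj hxy)) (fun f hf => by
      obtain ⟨f1, f2, f3⟩ := (hP f).1 hf
      obtain ⟨T0, t1, t2⟩ := ch.ext_semi ch (r := id) (σ := 1) (fun _ => rfl) f.bijective f1.1
      obtain ⟨T, t3⟩ := t1.lin
      have t4 : ∀ x, T (j x) = j (f x) := fun x => (t3 _).trans (t2 x)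
      have t5 : ∀ σ ∈ D.G, D.π σ = 1 → σ d = d → ∀ y, T (oa σ y) = oa σ (T y) :=
        fun σ hσ h2 h3 => (comm_iff ch t4 (ψ := id) (oa_semi σ).add (oa_semi σ).smul fun x =>
          (a2 _).2 ⟨x, rfl⟩ σ ((k.mem σ).2 ⟨hσ, h2, h3⟩)).2 fun _ => rfl
      obtain ⟨u, u1, u2, u3⟩ := h.build ((tri_iff ch t4 a3).2 f1.2) t5
      exact ⟨u, h.mem u1 u2 (fun σ hσ h2 h3 => (c2 u3 σ hσ h2 h3).2 (t5 σ hσ h2 h3))
        ((c1 u3 t4).1.2 f2) fun w hw => ((c1 u3 t4).2 w hw).2 (f3 w hw),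
        fun x => by rw [u3, t4]⟩)
    (fun u hu => by
      obtain ⟨T, t1, t2⟩ := h.tri hu
      obtain ⟨X, -, x1, x2, -⟩ := ch.ext
      obtain ⟨f, rfl⟩ := x2 T fun x => by
        obtain ⟨y, hy⟩ := (a2 (T (j x))).1 fun σ hσ => by
          obtain ⟨h1, h2, h3⟩ := (k.mem σ).1 hσ
          rw [← (c2 t1 σ h1 h2 h3).1 (fun _ => hu.2.2 σ h1 _), (a2 _).2 ⟨x, rfl⟩ σ hσ]
        exact ⟨y, hy.symm⟩
      refine ⟨f.toEquiv, (hP _).2 ⟨⟨fun t x y => ?_, (tri_iff ch (x1 f) a3).1 t2⟩,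
        (c1 t1 (x1 f)).1.1 fun _ => hu.2.2 s h.sG _,
        fun w hw => ((c1 t1 (x1 f)).2 w hw).1 fun _ => hu.2.2 w (h.wG w hw).1 _⟩,
        fun x => by rw [t1, x1]; rfl⟩
      exact (f.map_add _ _).trans (congrArg (· + f y) (f.map_smul t x)))
    fun u hu h1 => LinearEquiv.ext fun x => sub_eq_zero.1
      (h.uni hu ch.span (m := 0) (fun y => sub_eq_zero.2 (h1 y)) x)
  refine ⟨?_, fun hs => simpL_equiv E hs⟩
  rintro f ⟨m, hm⟩
  have h1 : Function.Semiconj (fun x => ins 0 (j x)) (fun y => f.1 y - y)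
      fun y => (E f).1 y - y := fun x => by
    change ins 0 (j (f.1 x - x)) = (E f).1 (ins 0 (j x)) - ins 0 (j x)
    rw [hE, ← (ins_lin 0).map_sub]
    exact congrArg _ (map_sub (Extx.sm ch) _ _)
  have h2 := hA _ (E f).2 ⟨m + 1, h.uni (E f).2 ch.span fun y => by
    have h3 : j 0 = 0 := (Extx.sm ch).map_zero
    rw [← h1.iterate_right (m + 1) y, Function.iterate_succ_apply, hm]
    exact (congrArg _ h3).trans (Prcx.ins_zero 0)⟩
  exact E.injective ((Subtype.ext h2).trans (map_one E).symm)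

end Vale.Agent.P011Z.Cl.D4fx

end
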